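import Vale.Agent.P207.N4.Dim
import Vale.Agent.P207.N4.H76.Asm2
import Vale.Agent.P207.N4.H459.Dirn
import Vale.Agent.P207.N4.H460.MFA

/-!
# P207, line N3, R13a / R22: the geometric input `In3` over model (A)
-/

open scoped Manifold ContDiff ENNReal Topology Matrix
open Bundle MeasureTheory Set Filter Metric

set_option maxSynthPendingDepth 3
set_option linter.unusedSectionVars false

noncomputable section

namespace Vale.Agent.P207.N4.H76

open Vale.Agent.P207.N3 Vale.Agent.P207.N3.H76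

variable [Dim]

open Vale.Agent.P255 (RMetric Npc)
open Vale.Agent.P207 Vale.Agent.P207.Q Vale.Agent.P207.Q.H130
open H465 (Deck PB Mt toMt ofMt Xt)
open H156 (geoA Dk co jA)
open H747 (fl TubeR usys)
open H459 (dirS)

variable {M : Type} [TopologicalSpace M] [ChartedSpace (EV (Dim.m + 1)) M] [IsManifold 𝓘(ℝ, EV (Dim.m + 1)) ∞ M]
  {g : RMetric (EV (Dim.m + 1)) M} [CompactSpace M] [T2Space M] [ConnectedSpace M] [Nonempty (Fr g)]

/-- the Hölder field of `In3` for `D` with the radius `θ` -/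
def HoldF {Γ X Y : Type} [Group Γ] [MetricSpace X] [ProperSpace X] [MetricSpace Y]
    [ProperSpace Y] [MulAction Γ X] [MulAction Γ Y] [IsIsometricSMul Γ X] [IsIsometricSMul Γ Y]
    {G : Geo Γ X Y} {V : Type} [NormedAddCommGroup V] [NormedSpace ℝ V] {j : Y ≃ₜ V}
    (D : G.Dir j) (θ : ℝ) : Prop :=
  ∀ Q : Set X, IsCompact Q → ∀ S₀ : ℝ, ∃ C α : ℝ, 0 < α ∧ ∀ y ∈ Q, ∀ y' ∈ Q,
    ∀ s ∈ Icc (-S₀) S₀, ∀ v ∈ closedBall (0 : E2) θ,
      ‖j (G.E (D.lf y v) (s • D.W y v)) - j (G.E (D.lf y' v) (s • D.W y' v))‖ ≤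
        C * dist y y' ^ α

variable (hN : NegCurvature g) (m : M) (Dm : MDat g (fl g)) {ρ : ℝ} (hT : TubeR g ρ)
  {ε δ : ℝ} {gs : Fr g → E2 → E2} (hg : (usys Dm hT).Slope ε δ gs)

/-- **the geometric input over model (A)** -/
def in3A {θ : ℝ} (hθ : 0 < θ) (hold : HoldF (dirS hN m Dm hT hg) θ) :
    (geoA hN m).In3 (jA (npc_of_neg hN) m) where
  D := dirS hN m Dm hT hg
  F := H460.mfA hN m
  K := Fr g
  topK := inferInstance
  cpt := inferInstance
  pr x := x.f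
  φK := fl g
  φK_cont := H747.continuous_fl
  pr_φ t x := H459.f_φ hN m t x
  g := gs
  ρ := ε
  ρ_pos := hg.ε_pos
  κ := Dm.lam
  κ_pos := Dm.ur.pos
  δ := (H459.ode_dirS hN m Dm hT hg).choose
  δ_pos := (H459.ode_dirS hN m Dm hT hg).choose_spec.1
  g_jc := ⟨isOpen_univ.prod isOpen_ball, fun x => (hg.smooth x).mono fun _ hu => hu.2, hg.cont⟩
  g_zero := hg.zero
  g_low x a := by
    rw [hg.deriv]
    exact H747.UC_pos Dm x a
  ode := (H459.ode_dirS hN m Dm hT hg).choose_spec.2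
  θ := θ
  θ_pos := hθ
  hold := hold

theorem in3A_D {θ : ℝ} (hθ : 0 < θ) (hold : HoldF (dirS hN m Dm hT hg) θ) :
    (in3A hN m Dm hT hg hθ hold).D = dirS hN m Dm hT hg := rfl

end Vale.Agent.P207.N4.H76
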